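import Vale.Agent.P141.H704.Ando

/-!
# P141, line (A): the light kernel at a fixed pair of points

Letters of `H704.ando`: `K₁ K₁p K₁m` and `K₂ K₂p K₂m` positive definite with
`K * K = (1 / 2) (Kp * Kp + Km * Km)`; `fm K₁ K₂ X C = tr (Xᵀ K₁⁻¹ C K₂⁻¹)`.  The increment of
`fm` is a positive semidefinite form in the pair of children, so every first and second order
term of the light kernel `K₁⁻¹ X K₂⁻¹` is paid by the increment of `fm K₁ K₂ X X`.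
-/

open Matrix
open scoped Kronecker

namespace Vale.Agent.P141.H999

open Vale.Agent.P141.H704

section vecs

variable {n : Type*} [Fintype n] [DecidableEq n]

/-- The increment of the form `y ↦ y · Z⁻¹ c` from the parent `M` to the children `Zp`, `Zm`. -/
noncomputable def bInc (M Zp Zm : Matrix n n ℝ) (yp ym cp cm : n → ℝ) : ℝ :=
  (1 / 2) * (yp ⬝ᵥ (Zp⁻¹ *ᵥ cp) + ym ⬝ᵥ (Zm⁻¹ *ᵥ cm)) -
    ((1 / 2 : ℝ) • (yp + ym)) ⬝ᵥ (M⁻¹ *ᵥ ((1 / 2 : ℝ) • (cp + cm)))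

theorem bInc_nonneg {M Zp Zm : Matrix n n ℝ} (hM : M.PosDef) (hZp : Zp.PosDef) (hZm : Zm.PosDef)
    (h : (M - (1 / 2 : ℝ) • (Zp + Zm)).PosSemidef) (yp ym : n → ℝ) :
    0 ≤ bInc M Zp Zm yp ym yp ym := by
  have h1 := inv_conv hM hZp hZm h (x := (1 / 2 : ℝ) • (yp + ym)) (xp := yp) (xm := ym) rfl
  unfold bInc
  linarith

theorem bInc_quad {M Zp Zm : Matrix n n ℝ} (hM : M.PosDef) (hZp : Zp.PosDef) (hZm : Zm.PosDef)
    (yp ym cp cm : n → ℝ) (z : ℝ) :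
    bInc M Zp Zm (yp + z • cp) (ym + z • cm) (yp + z • cp) (ym + z • cm) =
      bInc M Zp Zm cp cm cp cm * (z * z) + 2 * bInc M Zp Zm yp ym cp cm * z +
        bInc M Zp Zm yp ym yp ym := by
  have s1 : cp ⬝ᵥ (Zp⁻¹ *ᵥ yp) = yp ⬝ᵥ (Zp⁻¹ *ᵥ cp) := by
    rw [dotProduct_comm]
    exact symm_dot hZp.isHermitian.inv _ _
  have s2 : cm ⬝ᵥ (Zm⁻¹ *ᵥ ym) = ym ⬝ᵥ (Zm⁻¹ *ᵥ cm) := by
    rw [dotProduct_comm]
    exact symm_dot hZm.isHermitian.inv _ _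
  have s3 : ∀ a b : n → ℝ, b ⬝ᵥ (M⁻¹ *ᵥ a) = a ⬝ᵥ (M⁻¹ *ᵥ b) := by
    intro a b
    rw [dotProduct_comm]
    exact symm_dot hM.isHermitian.inv _ _
  unfold bInc
  simp only [mulVec_add, mulVec_smul, dotProduct_add, add_dotProduct, smul_dotProduct,
    dotProduct_smul, smul_eq_mul, smul_add]
  rw [s1, s2, s3 cp yp, s3 cp ym, s3 cm yp, s3 cm ym, s3 ym yp, s3 cm cp]
  ring

/-- **Cauchy-Schwarz for the increment.** -/
theorem bInc_cs {M Zp Zm : Matrix n n ℝ} (hM : M.PosDef) (hZp : Zp.PosDef) (hZm : Zm.PosDef)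
    (h : (M - (1 / 2 : ℝ) • (Zp + Zm)).PosSemidef) (yp ym cp cm : n → ℝ) :
    bInc M Zp Zm yp ym cp cm ^ 2 ≤ bInc M Zp Zm yp ym yp ym * bInc M Zp Zm cp cm cp cm := by
  have h1 : ∀ z : ℝ, 0 ≤ bInc M Zp Zm cp cm cp cm * (z * z) +
      2 * bInc M Zp Zm yp ym cp cm * z + bInc M Zp Zm yp ym yp ym := by
    intro z
    rw [← bInc_quad hM hZp hZm]
    exact bInc_nonneg hM hZp hZm h _ _
  have h2 := discrim_le_zero h1
  unfold discrim at h2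
  nlinarith

theorem inv_le_of {Z : Matrix n n ℝ} {l : ℝ} (hl : 0 ≤ l) (hZ : Z.PosDef)
    (h : (Z - l • (1 : Matrix n n ℝ)).PosSemidef) (w : n → ℝ) :
    l * (w ⬝ᵥ (Z⁻¹ *ᵥ w)) ≤ w ⬝ᵥ w := by
  have hu := (isUnit_iff_isUnit_det _).mp hZ.isUnit
  obtain ⟨a, ha⟩ : ∃ a, a = Z⁻¹ *ᵥ w := ⟨_, rfl⟩
  have h1 : Z *ᵥ a = w := by rw [ha, mulVec_mulVec, mul_nonsing_inv _ hu, one_mulVec]
  have h2 : 0 ≤ a ⬝ᵥ ((Z - l • (1 : Matrix n n ℝ)) *ᵥ a) := by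
    have := h.dotProduct_mulVec_nonneg a
    rwa [star_trivial] at this
  rw [sub_mulVec, h1, smul_mulVec, one_mulVec, dotProduct_sub, dotProduct_smul, smul_eq_mul] at h2
  have h3 : 0 ≤ (w - l • a) ⬝ᵥ (w - l • a) := by
    have := dotProduct_star_self_nonneg (w - l • a)
    rwa [star_trivial] at this
  rw [sub_dotProduct, dotProduct_sub, dotProduct_sub, smul_dotProduct, smul_dotProduct,
    dotProduct_smul, dotProduct_smul, smul_eq_mul, smul_eq_mul, smul_eq_mul, smul_eq_mul,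
    dotProduct_comm a w] at h3
  rw [dotProduct_comm a w] at h2
  rw [← ha]
  nlinarith

/-- **The moving vector `Z⁻¹ y` has square summable increments**, paid by the increment of
`y · Z⁻¹ y`. -/
theorem l2_inc {M Zp Zm : Matrix n n ℝ} (hM : M.PosDef) (hZp : Zp.PosDef) (hZm : Zm.PosDef)
    (h : (M - (1 / 2 : ℝ) • (Zp + Zm)).PosSemidef) {l : ℝ} (hl : 0 < l)
    (hp : (Zp - l • (1 : Matrix n n ℝ)).PosSemidef)
    (hm : (Zm - l • (1 : Matrix n n ℝ)).PosSemidef) (yp ym : n → ℝ) {ap am a : n → ℝ}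
    (hap : ap = Zp⁻¹ *ᵥ yp) (ham : am = Zm⁻¹ *ᵥ ym)
    (ha : a = M⁻¹ *ᵥ ((1 / 2 : ℝ) • (yp + ym))) :
    l * ((1 / 2) * ((ap - a) ⬝ᵥ (ap - a) + (am - a) ⬝ᵥ (am - a))) ≤
      bInc M Zp Zm yp ym yp ym := by
  obtain ⟨X, hX⟩ : ∃ X, X = (1 / 2) * ((ap - a) ⬝ᵥ (ap - a) + (am - a) ⬝ᵥ (am - a)) := ⟨_, rfl⟩
  have hn : ∀ w : n → ℝ, 0 ≤ w ⬝ᵥ w := by
    intro w
    have := dotProduct_star_self_nonneg w
    rwa [star_trivial] at this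
  have hX0 : 0 ≤ X := by
    rw [hX]
    have h1 := hn (ap - a)
    have h2 := hn (am - a)
    linarith
  have hB : bInc M Zp Zm yp ym (ap - a) (am - a) = X := by
    have s1 : yp ⬝ᵥ (Zp⁻¹ *ᵥ (ap - a)) = ap ⬝ᵥ (ap - a) := by
      rw [hap]
      exact (symm_dot hZp.isHermitian.inv _ _).symm
    have s2 : ym ⬝ᵥ (Zm⁻¹ *ᵥ (am - a)) = am ⬝ᵥ (am - a) := by
      rw [ham]
      exact (symm_dot hZm.isHermitian.inv _ _).symm
    have s3 : ((1 / 2 : ℝ) • (yp + ym)) ⬝ᵥ (M⁻¹ *ᵥ ((1 / 2 : ℝ) • (ap - a + (am - a)))) =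
        a ⬝ᵥ ((1 / 2 : ℝ) • (ap - a + (am - a))) := by
      rw [ha]
      exact (symm_dot hM.isHermitian.inv _ _).symm
    unfold bInc
    rw [s1, s2, s3, hX, dotProduct_smul, dotProduct_add, smul_eq_mul, sub_dotProduct,
      sub_dotProduct]
    ring
  have hC : l * bInc M Zp Zm (ap - a) (am - a) (ap - a) (am - a) ≤ X := by
    have h1 := inv_le_of hl.le hZp hp (ap - a)
    have h2 := inv_le_of hl.le hZm hm (am - a)
    have h3 : 0 ≤ ((1 / 2 : ℝ) • (ap - a + (am - a))) ⬝ᵥ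
        (M⁻¹ *ᵥ ((1 / 2 : ℝ) • (ap - a + (am - a)))) := by
      have := hM.inv.posSemidef.dotProduct_mulVec_nonneg ((1 / 2 : ℝ) • (ap - a + (am - a)))
      rwa [star_trivial] at this
    unfold bInc
    rw [hX]
    nlinarith [mul_nonneg hl.le h3]
  have hcs := bInc_cs hM hZp hZm h yp ym (ap - a) (am - a)
  rw [hB] at hcs
  have hy := bInc_nonneg hM hZp hZm h yp ym
  rw [← hX]
  rcases hX0.eq_or_lt with h0 | h0
  · rw [← h0, mul_zero]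
    exact hy
  · have h1 : l * X ^ 2 ≤ bInc M Zp Zm yp ym yp ym * X := by
      calc l * X ^ 2 ≤ l * (bInc M Zp Zm yp ym yp ym *
            bInc M Zp Zm (ap - a) (am - a) (ap - a) (am - a)) :=
            mul_le_mul_of_nonneg_left hcs hl.le
        _ = bInc M Zp Zm yp ym yp ym *
            (l * bInc M Zp Zm (ap - a) (am - a) (ap - a) (am - a)) := by ring
        _ ≤ bInc M Zp Zm yp ym yp ym * X := mul_le_mul_of_nonneg_left hC hy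
    have h2 : (l * X) * X ≤ bInc M Zp Zm yp ym yp ym * X := by nlinarith
    exact le_of_mul_le_mul_right h2 h0

end vecs

section kron

variable {ι κ : Type*} [Fintype ι] [DecidableEq ι] [Fintype κ] [DecidableEq κ]

/-- `tr (Xᵀ K₁⁻¹ C K₂⁻¹)`. -/
noncomputable def fm (K₁ : Matrix ι ι ℝ) (K₂ : Matrix κ κ ℝ) (X C : Matrix ι κ ℝ) : ℝ :=
  (Xᵀ * (K₁⁻¹ * C * K₂⁻¹)).trace

/-- The square of the Hilbert-Schmidt norm. -/
noncomputable def hs (X : Matrix ι κ ℝ) : ℝ := (Xᵀ * X).trace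

/-- A positive definite root with its two children: the squares form a martingale. -/
structure Sq (K Kp Km : Matrix ι ι ℝ) : Prop where
  h : K.PosDef
  hp : Kp.PosDef
  hm : Km.PosDef
  sq : K * K = (1 / 2 : ℝ) • (Kp * Kp + Km * Km)

/-- The increment of `fm` from the parent to the children. -/
noncomputable def fInc (K₁ K₁p K₁m : Matrix ι ι ℝ) (K₂ K₂p K₂m : Matrix κ κ ℝ)
    (Xp Xm Cp Cm : Matrix ι κ ℝ) : ℝ :=
  (1 / 2) * (fm K₁p K₂p Xp Cp + fm K₁m K₂m Xm Cm) -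
    fm K₁ K₂ ((1 / 2 : ℝ) • (Xp + Xm)) ((1 / 2 : ℝ) • (Cp + Cm))

omit [DecidableEq ι] [DecidableEq κ] in
theorem hs_nonneg (X : Matrix ι κ ℝ) : 0 ≤ hs X := by
  have h := (posSemidef_conjTranspose_mul_self X).trace_nonneg
  rwa [conjTranspose_eq_transpose_of_trivial] at h

theorem inv_vec (A : Matrix ι ι ℝ) {B : Matrix κ κ ℝ} (hB : B.IsHermitian) (X : Matrix ι κ ℝ) :
    (B ⊗ₖ A)⁻¹ *ᵥ vec X = vec (A⁻¹ * X * B⁻¹) := by
  have h : (B⁻¹)ᵀ = B⁻¹ := by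
    have := hB.inv.eq
    rwa [conjTranspose_eq_transpose_of_trivial] at this
  rw [inv_kronecker, kronecker_mulVec_vec, h]

theorem fm_vec (A : Matrix ι ι ℝ) {B : Matrix κ κ ℝ} (hB : B.IsHermitian) (X C : Matrix ι κ ℝ) :
    vec X ⬝ᵥ ((B ⊗ₖ A)⁻¹ *ᵥ vec C) = fm A B X C := by
  rw [inv_vec A hB, vec_dotProduct_vec]
  rfl

theorem fInc_vec {K₁ K₁p K₁m : Matrix ι ι ℝ} {K₂ K₂p K₂m : Matrix κ κ ℝ}
    (h₂ : K₂.IsHermitian) (h₂p : K₂p.IsHermitian) (h₂m : K₂m.IsHermitian)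
    (Xp Xm Cp Cm : Matrix ι κ ℝ) :
    bInc (K₂ ⊗ₖ K₁) (K₂p ⊗ₖ K₁p) (K₂m ⊗ₖ K₁m) (vec Xp) (vec Xm) (vec Cp) (vec Cm) =
      fInc K₁ K₁p K₁m K₂ K₂p K₂m Xp Xm Cp Cm := by
  unfold bInc fInc
  rw [fm_vec _ h₂p, fm_vec _ h₂m, ← vec_add, ← vec_add, ← vec_smul, ← vec_smul, fm_vec _ h₂]

theorem Sq.conc {K₁ K₁p K₁m : Matrix ι ι ℝ} {K₂ K₂p K₂m : Matrix κ κ ℝ} (H₁ : Sq K₁ K₁p K₁m)
    (H₂ : Sq K₂ K₂p K₂m) :
    (K₂ ⊗ₖ K₁ - (1 / 2 : ℝ) • (K₂p ⊗ₖ K₁p + K₂m ⊗ₖ K₁m)).PosSemidef :=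
  kron_conc H₁.h H₁.hp H₁.hm H₂.h H₂.hp H₂.hm H₁.sq H₂.sq

theorem fInc_nonneg {K₁ K₁p K₁m : Matrix ι ι ℝ} {K₂ K₂p K₂m : Matrix κ κ ℝ}
    (H₁ : Sq K₁ K₁p K₁m) (H₂ : Sq K₂ K₂p K₂m) (Xp Xm : Matrix ι κ ℝ) :
    0 ≤ fInc K₁ K₁p K₁m K₂ K₂p K₂m Xp Xm Xp Xm := by
  rw [← fInc_vec H₂.h.isHermitian H₂.hp.isHermitian H₂.hm.isHermitian]
  exact bInc_nonneg (H₂.h.kronecker H₁.h) (H₂.hp.kronecker H₁.hp) (H₂.hm.kronecker H₁.hm)
    (H₁.conc H₂) _ _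

/-- **(L1)** Cauchy-Schwarz for the increment of the weighted form, any two pairs. -/
theorem light_cs {K₁ K₁p K₁m : Matrix ι ι ℝ} {K₂ K₂p K₂m : Matrix κ κ ℝ}
    (H₁ : Sq K₁ K₁p K₁m) (H₂ : Sq K₂ K₂p K₂m) (Xp Xm Cp Cm : Matrix ι κ ℝ) :
    fInc K₁ K₁p K₁m K₂ K₂p K₂m Xp Xm Cp Cm ^ 2 ≤
      fInc K₁ K₁p K₁m K₂ K₂p K₂m Xp Xm Xp Xm * fInc K₁ K₁p K₁m K₂ K₂p K₂m Cp Cm Cp Cm := by
  simp only [← fInc_vec H₂.h.isHermitian H₂.hp.isHermitian H₂.hm.isHermitian]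
  exact bInc_cs (H₂.h.kronecker H₁.h) (H₂.hp.kronecker H₁.hp) (H₂.hm.kronecker H₁.hm)
    (H₁.conc H₂) _ _ _ _

/-- **(L3)** The defect of linearity of the light kernel against a fixed matrix. -/
theorem light_defect {K₁ K₁p K₁m : Matrix ι ι ℝ} {K₂ K₂p K₂m : Matrix κ κ ℝ}
    (H₁ : Sq K₁ K₁p K₁m) (H₂ : Sq K₂ K₂p K₂m) (Xp Xm C : Matrix ι κ ℝ) :
    ((1 / 2) * (fm K₁p K₂p Xp C + fm K₁m K₂m Xm C) - fm K₁ K₂ ((1 / 2 : ℝ) • (Xp + Xm)) C) ^ 2 ≤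
      fInc K₁ K₁p K₁m K₂ K₂p K₂m Xp Xm Xp Xm * fInc K₁ K₁p K₁m K₂ K₂p K₂m C C C C := by
  have h := light_cs H₁ H₂ Xp Xm C C
  have e : (1 / 2 : ℝ) • (C + C) = C := by module
  rw [fInc, e] at h
  exact h

/-- The product of two roots above `r` is above `r * r`. -/
theorem kron_ge {K₁ : Matrix ι ι ℝ} {K₂ : Matrix κ κ ℝ} {r : ℝ} (hr : 0 ≤ r)
    (h₁ : K₁.PosSemidef) (hr₁ : (K₁ - r • (1 : Matrix ι ι ℝ)).PosSemidef)
    (hr₂ : (K₂ - r • (1 : Matrix κ κ ℝ)).PosSemidef) :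
    (K₂ ⊗ₖ K₁ - (r * r) • (1 : Matrix (κ × ι) (κ × ι) ℝ)).PosSemidef := by
  have h1 := hr₂.kronecker h₁
  have h2 := ((PosSemidef.one (n := κ) (R := ℝ)).kronecker hr₁).smul hr
  have e : K₂ ⊗ₖ K₁ - (r * r) • (1 : Matrix (κ × ι) (κ × ι) ℝ) =
      (K₂ - r • (1 : Matrix κ κ ℝ)) ⊗ₖ K₁ +
        r • ((1 : Matrix κ κ ℝ) ⊗ₖ (K₁ - r • (1 : Matrix ι ι ℝ))) := by
    rw [← one_kronecker_one, sub_eq_add_neg K₂, sub_eq_add_neg K₁, add_kronecker, kronecker_add,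
      ← neg_smul, ← neg_smul, smul_kronecker, kronecker_smul]
    module
  rw [e]
  exact h1.add h2

/-- **(L2)** The light kernel `l K₁⁻¹ X K₂⁻¹` has square summable increments, paid by the
increment of the weighted form. -/
theorem light_l2 {K₁ K₁p K₁m : Matrix ι ι ℝ} {K₂ K₂p K₂m : Matrix κ κ ℝ}
    (H₁ : Sq K₁ K₁p K₁m) (H₂ : Sq K₂ K₂p K₂m) {r l : ℝ} (hr : 0 < r) (hl : l = r * r)
    (h₁p : (K₁p - r • (1 : Matrix ι ι ℝ)).PosSemidef)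
    (h₁m : (K₁m - r • (1 : Matrix ι ι ℝ)).PosSemidef)
    (h₂p : (K₂p - r • (1 : Matrix κ κ ℝ)).PosSemidef)
    (h₂m : (K₂m - r • (1 : Matrix κ κ ℝ)).PosSemidef)
    {Xp Xm M Mp Mm : Matrix ι κ ℝ}
    (hM : M = l • (K₁⁻¹ * ((1 / 2 : ℝ) • (Xp + Xm)) * K₂⁻¹))
    (hMp : Mp = l • (K₁p⁻¹ * Xp * K₂p⁻¹)) (hMm : Mm = l • (K₁m⁻¹ * Xm * K₂m⁻¹)) :
    (1 / 2) * (hs (Mp - M) + hs (Mm - M)) ≤
      l * fInc K₁ K₁p K₁m K₂ K₂p K₂m Xp Xm Xp Xm := by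
  have hl0 : 0 < l := by rw [hl]; positivity
  have h := l2_inc (H₂.h.kronecker H₁.h) (H₂.hp.kronecker H₁.hp) (H₂.hm.kronecker H₁.hm)
    (H₁.conc H₂) hl0
    (by rw [hl]; exact kron_ge hr.le H₁.hp.posSemidef h₁p h₂p)
    (by rw [hl]; exact kron_ge hr.le H₁.hm.posSemidef h₁m h₂m) (vec Xp) (vec Xm)
    (inv_vec _ H₂.hp.isHermitian Xp).symm (inv_vec _ H₂.hm.isHermitian Xm).symm
    (a := vec (K₁⁻¹ * ((1 / 2 : ℝ) • (Xp + Xm)) * K₂⁻¹))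
    (by rw [← vec_add, ← vec_smul, inv_vec _ H₂.h.isHermitian])
  rw [fInc_vec H₂.h.isHermitian H₂.hp.isHermitian H₂.hm.isHermitian, ← vec_sub, ← vec_sub,
    vec_dotProduct_vec, vec_dotProduct_vec] at h
  have e : ∀ A B : Matrix ι κ ℝ, hs (l • A - l • B) = l * (l * ((A - B)ᵀ * (A - B)).trace) := by
    intro A B
    rw [← smul_sub, hs, transpose_smul, Matrix.smul_mul, Matrix.mul_smul, trace_smul,
      trace_smul, smul_eq_mul, smul_eq_mul]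
  rw [hM, hMp, hMm, e, e]
  have h2 := mul_le_mul_of_nonneg_left h hl0.le
  linarith

end kron

section roots

variable {n : Type*} [Fintype n] [DecidableEq n]

/-- The root is concave. -/
theorem Sq.root {K Kp Km : Matrix n n ℝ} (H : Sq K Kp Km) :
    (K - (1 / 2 : ℝ) • (Kp + Km)).PosSemidef := by
  have h := gm_le (P := K) (Q := 1) (Pp := Kp) (Qp := 1) (Pm := Km) (Qm := 1)
    H.h.isHermitian H.hp.isHermitian isHermitian_one H.hm.isHermitian isHermitian_one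
    (by rw [mul_one, one_mul]) (by rw [mul_one, one_mul]) (by rw [mul_one, one_mul])
    H.h.isUnit (by rw [mul_one]; exact H.h) H.sq (by rw [mul_one]; module)
  rwa [mul_one, mul_one, mul_one] at h

/-- The gain of `S = r K⁻¹` from the parent to the children. -/
noncomputable def del (r : ℝ) (K Kp Km : Matrix n n ℝ) : Matrix n n ℝ :=
  (1 / 2 : ℝ) • (r • Kp⁻¹ + r • Km⁻¹) - r • K⁻¹

theorem herm_sub (r : ℝ) {A B : Matrix n n ℝ} (hA : A.PosDef) (hB : B.PosDef) :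
    (r • A⁻¹ - r • B⁻¹).IsHermitian := by
  rw [IsHermitian, conjTranspose_sub, conjTranspose_smul, conjTranspose_smul,
    hA.isHermitian.inv.eq, hB.isHermitian.inv.eq, star_trivial]

theorem del_quad (r : ℝ) (K Kp Km : Matrix n n ℝ) (w : n → ℝ) :
    w ⬝ᵥ (del r K Kp Km *ᵥ w) = r * bInc K Kp Km w w w w := by
  have e : (1 / 2 : ℝ) • (w + w) = w := by module
  unfold del bInc
  rw [e, sub_mulVec, smul_mulVec, add_mulVec, smul_mulVec, smul_mulVec, smul_mulVec,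
    dotProduct_sub, dotProduct_smul, dotProduct_add, dotProduct_smul, dotProduct_smul,
    dotProduct_smul]
  simp only [smul_eq_mul]
  ring

theorem del_psd {K Kp Km : Matrix n n ℝ} (H : Sq K Kp Km) {r : ℝ} (hr : 0 ≤ r) :
    (del r K Kp Km).PosSemidef := by
  refine .of_dotProduct_mulVec_nonneg ?_ fun w => ?_
  · unfold del
    have h1 := H.h.isHermitian.inv
    have h2 := H.hp.isHermitian.inv
    have h3 := H.hm.isHermitian.inv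
    rw [IsHermitian, conjTranspose_sub, conjTranspose_smul, conjTranspose_add,
      conjTranspose_smul, conjTranspose_smul, conjTranspose_smul, h1.eq, h2.eq, h3.eq]
    simp
  · rw [star_trivial, del_quad]
    exact mul_nonneg hr (bInc_nonneg H.h H.hp H.hm H.root _ _)

/-- **(L5)** The square of the motion of `S = r K⁻¹` is at most its gain. -/
theorem e_sq {K Kp Km : Matrix n n ℝ} (H : Sq K Kp Km) {r : ℝ} (hr : 0 < r)
    (hp : (Kp - r • (1 : Matrix n n ℝ)).PosSemidef)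
    (hm : (Km - r • (1 : Matrix n n ℝ)).PosSemidef) (w : n → ℝ) :
    (1 / 2) * (((r • Kp⁻¹ - r • K⁻¹) *ᵥ w) ⬝ᵥ ((r • Kp⁻¹ - r • K⁻¹) *ᵥ w) +
      ((r • Km⁻¹ - r • K⁻¹) *ᵥ w) ⬝ᵥ ((r • Km⁻¹ - r • K⁻¹) *ᵥ w)) ≤
        w ⬝ᵥ (del r K Kp Km *ᵥ w) := by
  have e : (1 / 2 : ℝ) • (w + w) = w := by module
  have h := l2_inc H.h H.hp H.hm H.root hr hp hm w w rfl rfl (a := K⁻¹ *ᵥ w) (by rw [e])
  rw [del_quad]
  have h2 := mul_le_mul_of_nonneg_left h hr.le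
  have e2 : ∀ A B : Matrix n n ℝ, ((r • A - r • B) *ᵥ w) ⬝ᵥ ((r • A - r • B) *ᵥ w) =
      r * (r * ((A *ᵥ w - B *ᵥ w) ⬝ᵥ (A *ᵥ w - B *ᵥ w))) := by
    intro A B
    rw [← smul_sub, smul_mulVec, sub_mulVec, smul_dotProduct, dotProduct_smul, smul_eq_mul,
      smul_eq_mul]
  rw [e2, e2]
  linarith

/-- `S = r K⁻¹` is at most one. -/
theorem S_le_one {K : Matrix n n ℝ} {r : ℝ} (hr : 0 ≤ r) (hK : K.PosDef)
    (h : (K - r • (1 : Matrix n n ℝ)).PosSemidef) :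
    ((1 : Matrix n n ℝ) - r • K⁻¹).PosSemidef := by
  refine .of_dotProduct_mulVec_nonneg ?_ fun w => ?_
  · have h1 := hK.isHermitian.inv
    rw [IsHermitian, conjTranspose_sub, conjTranspose_smul, conjTranspose_one, h1.eq]
    simp
  · rw [star_trivial, sub_mulVec, one_mulVec, smul_mulVec, dotProduct_sub, dotProduct_smul,
      smul_eq_mul]
    have := inv_le_of hr hK h w
    linarith

/-- **`1 - S` is at most `G / l`** for `K K = l + G`, `S = r K⁻¹`, `r r = l`. -/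
theorem one_sub_S_le {K G : Matrix n n ℝ} {r l : ℝ} (hr : 0 < r) (hl : l = r * r)
    (hK : K.PosDef) (h : (K - r • (1 : Matrix n n ℝ)).PosSemidef)
    (hG : G.PosSemidef) (hs : K * K = l • (1 : Matrix n n ℝ) + G) (w : n → ℝ) :
    w ⬝ᵥ w - w ⬝ᵥ ((r • K⁻¹) *ᵥ w) ≤ w ⬝ᵥ (G *ᵥ w) / l := by
  have hl0 : 0 < l := by rw [hl]; positivity
  have hT : (l • (1 : Matrix n n ℝ) + G).PosDef :=
    (PosDef.one.smul hl0).add_posSemidef hG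
  -- `|S w|² ≤ w · S w`
  have hu := (isUnit_iff_isUnit_det _).mp hK.isUnit
  obtain ⟨a, ha⟩ : ∃ a, a = K⁻¹ *ᵥ w := ⟨_, rfl⟩
  have h1 : K *ᵥ a = w := by rw [ha, mulVec_mulVec, mul_nonsing_inv _ hu, one_mulVec]
  have h2 : 0 ≤ a ⬝ᵥ ((K - r • (1 : Matrix n n ℝ)) *ᵥ a) := by
    have := h.dotProduct_mulVec_nonneg a
    rwa [star_trivial] at this
  rw [sub_mulVec, h1, smul_mulVec, one_mulVec, dotProduct_sub, dotProduct_smul, smul_eq_mul,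
    dotProduct_comm a w] at h2
  have h3 := inv_ge hT w (l⁻¹ • w)
  have h4 : w ⬝ᵥ ((l • (1 : Matrix n n ℝ) + G)⁻¹ *ᵥ w) = a ⬝ᵥ a := by
    rw [← hs, Matrix.mul_inv_rev, ha, ← mulVec_mulVec]
    exact (symm_dot hK.isHermitian.inv _ _).symm
  rw [h4, dotProduct_smul, smul_dotProduct, mulVec_smul, dotProduct_smul, add_mulVec,
    smul_mulVec, one_mulVec, dotProduct_add, dotProduct_smul] at h3
  simp only [smul_eq_mul] at h3
  rw [smul_mulVec, dotProduct_smul, smul_eq_mul, ← ha]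
  have h5 : l * (2 * (l⁻¹ * (w ⬝ᵥ w)) - l⁻¹ * (l⁻¹ * (l * (w ⬝ᵥ w) + w ⬝ᵥ (G *ᵥ w)))) =
      w ⬝ᵥ w - w ⬝ᵥ (G *ᵥ w) / l := by
    field_simp
    ring
  have h6 := mul_le_mul_of_nonneg_left h3 hl0.le
  rw [h5] at h6
  have h7 : l * (a ⬝ᵥ a) ≤ r * (w ⬝ᵥ a) := by
    rw [hl, mul_assoc]
    exact mul_le_mul_of_nonneg_left (by linarith) hr.le
  linarith

end roots

section gain

variable {ι κ : Type*} [Fintype ι] [DecidableEq ι] [Fintype κ] [DecidableEq κ]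

omit [DecidableEq ι] [DecidableEq κ] in
theorem trace_cols (A B : Matrix ι κ ℝ) :
    (Aᵀ * B).trace = ∑ j, (fun i => A i j) ⬝ᵥ (fun i => B i j) := rfl

theorem trace_psd_mul {A B : Matrix ι ι ℝ} (hA : A.PosSemidef) (hB : B.PosSemidef) :
    0 ≤ (A * B).trace := by
  open scoped MatrixOrder in
  obtain ⟨D, hD⟩ : ∃ D : Matrix ι ι ℝ, A = Dᴴ * D := by
    obtain ⟨D, hD⟩ := CStarAlgebra.nonneg_iff_eq_star_mul_self.mp hA.nonneg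
    exact ⟨D, hD⟩
  have h := (hB.mul_mul_conjTranspose_same D).trace_nonneg
  rw [hD, mul_assoc, trace_mul_comm]
  rwa [mul_assoc] at h ⊢

omit [DecidableEq ι] in
/-- A weight at most one on the right may be dropped. -/
theorem drop_right {P : Matrix ι ι ℝ} {Q : Matrix κ κ ℝ} (hP : P.PosSemidef)
    (hQ : ((1 : Matrix κ κ ℝ) - Q).PosSemidef) (C : Matrix ι κ ℝ) :
    (Cᵀ * (P * C * Q)).trace ≤ (Cᵀ * (P * C)).trace := by
  have h1 := hP.conjTranspose_mul_mul_same C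
  rw [conjTranspose_eq_transpose_of_trivial] at h1
  have h := trace_psd_mul h1 hQ
  rw [mul_sub, mul_one, trace_sub] at h
  have e1 : Cᵀ * P * C = Cᵀ * (P * C) := by rw [Matrix.mul_assoc]
  have e2 : Cᵀ * P * C * Q = Cᵀ * (P * C * Q) := by simp only [Matrix.mul_assoc]
  rw [e1] at h e2
  rw [e2] at h
  linarith

omit [DecidableEq ι] [DecidableEq κ] in
theorem trace_flip {P : Matrix ι ι ℝ} {Q : Matrix κ κ ℝ} (hP : P.IsHermitian)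
    (hQ : Q.IsHermitian) (C : Matrix ι κ ℝ) :
    (Cᵀ * (P * C * Q)).trace = (Cᵀᵀ * (Q * Cᵀ * P)).trace := by
  have h1 : Pᵀ = P := by rw [← conjTranspose_eq_transpose_of_trivial]; exact hP
  have h2 : Qᵀ = Q := by rw [← conjTranspose_eq_transpose_of_trivial]; exact hQ
  rw [← trace_transpose, transpose_mul, transpose_mul, transpose_mul, h1, h2, transpose_transpose,
    trace_mul_comm]
  simp only [Matrix.mul_assoc]

omit [DecidableEq ι] [DecidableEq κ] in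
theorem cross_le {E₁ : Matrix ι ι ℝ} (h₁ : E₁.IsHermitian) (E₂ : Matrix κ κ ℝ)
    (C : Matrix ι κ ℝ) :
    (Cᵀ * (E₁ * C * E₂)).trace ≤ (1 / 2) * (hs (E₁ * C) + hs (C * E₂)) := by
  have h := hs_nonneg (E₁ * C - C * E₂)
  have h1 : E₁ᵀ = E₁ := by rw [← conjTranspose_eq_transpose_of_trivial]; exact h₁
  have e1 : ((E₁ * C)ᵀ * (C * E₂)).trace = (Cᵀ * (E₁ * C * E₂)).trace := by
    rw [transpose_mul, h1]
    simp only [Matrix.mul_assoc]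
  have e2 : ((C * E₂)ᵀ * (E₁ * C)).trace = (Cᵀ * (E₁ * C * E₂)).trace := by
    rw [← e1, ← trace_transpose, transpose_mul, transpose_transpose]
  rw [hs, transpose_sub, Matrix.sub_mul, Matrix.mul_sub, Matrix.mul_sub, trace_sub, trace_sub,
    trace_sub, e1, e2] at h
  unfold hs
  linarith

omit [DecidableEq κ] in
/-- Half of the squares of the two motions of `S C` is at most the gain. -/
theorem hs_e_le {K Kp Km : Matrix ι ι ℝ} (H : Sq K Kp Km) {r : ℝ} (hr : 0 < r)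
    (hp : (Kp - r • (1 : Matrix ι ι ℝ)).PosSemidef)
    (hm : (Km - r • (1 : Matrix ι ι ℝ)).PosSemidef) (C : Matrix ι κ ℝ) :
    (1 / 2) * (hs ((r • Kp⁻¹ - r • K⁻¹) * C) + hs ((r • Km⁻¹ - r • K⁻¹) * C)) ≤
      (Cᵀ * (del r K Kp Km * C)).trace := by
  have h : ∀ j, (1 / 2) * (((r • Kp⁻¹ - r • K⁻¹) *ᵥ fun i => C i j) ⬝ᵥ
      ((r • Kp⁻¹ - r • K⁻¹) *ᵥ fun i => C i j) + ((r • Km⁻¹ - r • K⁻¹) *ᵥ fun i => C i j) ⬝ᵥ
      ((r • Km⁻¹ - r • K⁻¹) *ᵥ fun i => C i j)) ≤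
        (fun i => C i j) ⬝ᵥ (del r K Kp Km *ᵥ fun i => C i j) := fun j => e_sq H hr hp hm _
  have h2 := Finset.sum_le_sum fun j (_ : j ∈ (Finset.univ : Finset κ)) => h j
  rw [← Finset.mul_sum, Finset.sum_add_distrib] at h2
  unfold hs
  rw [trace_cols, trace_cols, trace_cols]
  exact h2

/-- **(L4)** The increment at a fixed matrix `C` is at most the gains of the two roots. -/
theorem inc0_le {K₁ K₁p K₁m : Matrix ι ι ℝ} {K₂ K₂p K₂m : Matrix κ κ ℝ}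
    (H₁ : Sq K₁ K₁p K₁m) (H₂ : Sq K₂ K₂p K₂m) {r l : ℝ} (hr : 0 < r) (hl : l = r * r)
    (h₁ : (K₁ - r • (1 : Matrix ι ι ℝ)).PosSemidef)
    (h₁p : (K₁p - r • (1 : Matrix ι ι ℝ)).PosSemidef)
    (h₁m : (K₁m - r • (1 : Matrix ι ι ℝ)).PosSemidef)
    (h₂ : (K₂ - r • (1 : Matrix κ κ ℝ)).PosSemidef)
    (h₂p : (K₂p - r • (1 : Matrix κ κ ℝ)).PosSemidef)
    (h₂m : (K₂m - r • (1 : Matrix κ κ ℝ)).PosSemidef) (C : Matrix ι κ ℝ) :
    l * fInc K₁ K₁p K₁m K₂ K₂p K₂m C C C C ≤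
      3 / 2 * ((Cᵀ * (del r K₁ K₁p K₁m * C)).trace + (Cᵀᵀ * (del r K₂ K₂p K₂m * Cᵀ)).trace) := by
  have e : (1 / 2 : ℝ) • (C + C) = C := by module
  have hfm : ∀ (A : Matrix ι ι ℝ) (B : Matrix κ κ ℝ),
      l * fm A B C C = (Cᵀ * ((r • A⁻¹) * C * (r • B⁻¹))).trace := by
    intro A B
    rw [fm, hl, Matrix.smul_mul, Matrix.smul_mul, Matrix.mul_smul, Matrix.mul_smul,
      Matrix.mul_smul, trace_smul, trace_smul, smul_eq_mul, smul_eq_mul, mul_assoc]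
  obtain ⟨S₁, hS₁⟩ : ∃ S, S = r • K₁⁻¹ := ⟨_, rfl⟩
  obtain ⟨S₂, hS₂⟩ : ∃ S, S = r • K₂⁻¹ := ⟨_, rfl⟩
  obtain ⟨P₁, hP₁⟩ : ∃ P, P = r • K₁p⁻¹ - r • K₁⁻¹ := ⟨_, rfl⟩
  obtain ⟨Q₁, hQ₁⟩ : ∃ Q, Q = r • K₁m⁻¹ - r • K₁⁻¹ := ⟨_, rfl⟩
  obtain ⟨P₂, hP₂⟩ : ∃ P, P = r • K₂p⁻¹ - r • K₂⁻¹ := ⟨_, rfl⟩
  obtain ⟨Q₂, hQ₂⟩ : ∃ Q, Q = r • K₂m⁻¹ - r • K₂⁻¹ := ⟨_, rfl⟩
  have d₁ : del r K₁ K₁p K₁m = (1 / 2 : ℝ) • (P₁ + Q₁) := by
    rw [hP₁, hQ₁, del]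
    module
  have d₂ : del r K₂ K₂p K₂m = (1 / 2 : ℝ) • (P₂ + Q₂) := by
    rw [hP₂, hQ₂, del]
    module
  have p₁ : r • K₁p⁻¹ = S₁ + P₁ := by rw [hS₁, hP₁]; abel
  have q₁ : r • K₁m⁻¹ = S₁ + Q₁ := by rw [hS₁, hQ₁]; abel
  have p₂ : r • K₂p⁻¹ = S₂ + P₂ := by rw [hS₂, hP₂]; abel
  have q₂ : r • K₂m⁻¹ = S₂ + Q₂ := by rw [hS₂, hQ₂]; abel
  have hP₁h : P₁.IsHermitian := by rw [hP₁]; exact herm_sub r H₁.hp H₁.h
  have hQ₁h : Q₁.IsHermitian := by rw [hQ₁]; exact herm_sub r H₁.hm H₁.h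
  have hP₂h : P₂.IsHermitian := by rw [hP₂]; exact herm_sub r H₂.hp H₂.h
  have hQ₂h : Q₂.IsHermitian := by rw [hQ₂]; exact herm_sub r H₂.hm H₂.h
  have hS₁h : S₁.IsHermitian := by
    rw [hS₁, IsHermitian, conjTranspose_smul, H₁.h.isHermitian.inv.eq, star_trivial]
  -- the two main terms
  have a1 : (Cᵀ * (del r K₁ K₁p K₁m * C * S₂)).trace ≤
      (Cᵀ * (del r K₁ K₁p K₁m * C)).trace := by
    rw [hS₂]
    exact drop_right (del_psd H₁ hr.le) (S_le_one hr.le H₂.h h₂) C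
  have a2 : (Cᵀ * (S₁ * C * del r K₂ K₂p K₂m)).trace ≤
      (Cᵀᵀ * (del r K₂ K₂p K₂m * Cᵀ)).trace := by
    rw [trace_flip hS₁h (del_psd H₂ hr.le).isHermitian, hS₁]
    exact drop_right (del_psd H₂ hr.le) (S_le_one hr.le H₁.h h₁) Cᵀ
  -- the cross terms
  have b1 := cross_le hP₁h P₂ C
  have b2 := cross_le hQ₁h Q₂ C
  have c1 := hs_e_le H₁ hr h₁p h₁m C
  have c2 := hs_e_le H₂ hr h₂p h₂m Cᵀ
  rw [← hP₁, ← hQ₁] at c1
  rw [← hP₂, ← hQ₂] at c2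
  have hsT : ∀ {E : Matrix κ κ ℝ}, E.IsHermitian → hs (C * E) = hs (E * Cᵀ) := by
    intro E hE
    have h1 : Eᵀ = E := by rw [← conjTranspose_eq_transpose_of_trivial]; exact hE
    rw [hs, hs, transpose_mul, transpose_mul, h1, transpose_transpose, trace_mul_comm]
  rw [hsT hP₂h] at b1
  rw [hsT hQ₂h] at b2
  unfold fInc
  rw [e, mul_sub, mul_left_comm, mul_add, hfm, hfm, hfm, p₁, q₁, p₂, q₂, ← hS₁, ← hS₂]
  have x1 : ∀ (E₁ : Matrix ι ι ℝ) (E₂ : Matrix κ κ ℝ),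
      (Cᵀ * ((S₁ + E₁) * C * (S₂ + E₂))).trace = (Cᵀ * (S₁ * C * S₂)).trace +
        (Cᵀ * (E₁ * C * S₂)).trace + (Cᵀ * (S₁ * C * E₂)).trace +
          (Cᵀ * (E₁ * C * E₂)).trace := by
    intro E₁ E₂
    simp only [Matrix.add_mul, Matrix.mul_add, trace_add]
    ring
  rw [x1, x1]
  rw [d₁] at a1 c1 ⊢
  rw [d₂] at a2 c2 ⊢
  simp only [Matrix.smul_mul, Matrix.mul_smul, Matrix.add_mul, Matrix.mul_add, trace_smul,
    trace_add, smul_eq_mul] at a1 a2 c1 c2 ⊢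
  linarith

end gain

end Vale.Agent.P141.H999
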