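import Vale.Agent.P141.H46.LightF
import Vale.Agent.P141.H633.DLine
import Vale.Agent.P141.H536.LightQ

/-!
# P141, line (A): the sum over the fourth variable of the light pair

* `dcc_sum` : the defect of linearity, summed over the family, by `H633.dTot`;
* `ag_of_path`, `zero_of_lf`, `pwr_lab` : the hypotheses of the light pair from the paths of the
  labels;
* `light_x0` : **the light pair summed over the family**, the four numbers (masses of the killed
  squares of the two slots, reflected own energies, defect) being hypotheses.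
-/

set_option linter.unusedSectionVars false

namespace Vale.Agent.P141.H999

open Finset Matrix Vale.Agent.P141.PL Vale.Agent.P141.PL.H103 Vale.Agent.P141.H103
open Vale.Agent.P075 (Ix val)
open Vale.Agent.P141.H338 (cu lf sum_cu_cu cu_apply)
open Vale.Agent.P141.H958 (pwr lbs)
open Vale.Agent.P141.H736 (Path Agree sqQ sqb)
open Vale.Agent.P141.H46 (ms yS rS)
open Vale.Agent.P141.H874 (gn dcc LP QP)

noncomputable section

section labels

variable {κ : Type*} [Fintype κ] [DecidableEq κ]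
variable {N L : ℕ} {e : κ → ℤ}

/-- the paths of the labels give the agreement of the labelled functions -/
theorem ag_of_path (he : Function.Injective e) (hm : ∀ a, e a ∈ lbs L) {R S : ℤ}
    {Q : ℕ → ℤ → ℤ → Prop} {b : ℕ → κ → ℤ → ℤ → ℝ}
    (h : ∀ a ∈ lbs L, Path N R S Q (fun k => lf e (b k) a)) {k : ℕ} (hk : k < N) :
    ∀ n ∈ iv (N - k) R, ∀ m ∈ iv (N - k) S, ¬ Q k n m → ∀ x ∈ iv k m, ∀ y ∈ iv k n,
      (fun a => b (k + 1) a y x) = fun a => b k a y x := by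
  intro n hn m hm' hq x hx y hy
  funext a
  have h1 := h (e a) (hm a) k hk n hn m hm' hq y hy x hx
  simp only [lf] at h1
  rwa [cu_apply he, cu_apply he] at h1

/-- the start of the paths -/
theorem zero_of_lf (he : Function.Injective e) {b : κ → ℤ → ℤ → ℝ}
    (h : lf e b = 0) (x y : ℤ) : (fun a => b a y x) = 0 := by
  funext a
  have h1 : lf e b (e a) y x = 0 := by rw [h]; rfl
  simp only [lf] at h1
  rwa [cu_apply he] at h1

open scoped Classical in
/-- the power of the labels is the mass of the killed squares -/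
theorem pwr_lab (he : Function.Injective e) (hm : ∀ a, e a ∈ lbs L) {R S : ℤ}
    (Q : ℕ → ℤ → ℤ → Prop) (b : ℕ → κ → ℤ → ℤ → ℝ) :
    ∑ k ∈ range N, yS N S R k 1 (Q k) (fun x y a => b (k + 1) a y x)
      = ∑ a ∈ lbs L, pwr N R S Q (fun k => lf e (b k) a) := by
  have key : ∀ f : κ → ℤ → ℤ → ℝ, ∀ k n m, ∑ a ∈ lbs L, sqb k n m (lf e f a)
      = ms (fun x y a => f a y x) k k n m := by
    intro f k n m
    unfold sqb ms
    rw [sum_comm]
    refine sum_congr rfl fun x _ => ?_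
    rw [sum_comm]
    refine sum_congr rfl fun y _ => ?_
    have h := sum_cu_cu he hm (fun i => f i y x) (fun i => f i y x)
    simp only [lf, dotProduct, sq]
    exact h
  have key2 : ∀ k, ∑ a ∈ lbs L, sqQ N R S k (Q k) (lf e (b (k + 1)) a)
      = yS N S R k 1 (Q k) (fun x y a => b (k + 1) a y x) := by
    intro k
    unfold yS sqQ
    rw [sum_comm]
    refine sum_congr rfl fun m _ => ?_
    rw [sum_comm]
    refine sum_congr rfl fun n _ => ?_
    by_cases hq : Q k n m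
    · simp only [if_pos hq, one_mul]
      exact key (b (k + 1)) k n m
    · simp only [if_neg hq, sum_const_zero]
  unfold pwr
  rw [sum_comm]
  exact sum_congr rfl fun k _ => (key2 k).symm

end labels

variable {κ : Type*} [Fintype κ] [DecidableEq κ]
variable {l : ℝ} {N : ℕ} {G K : ℤ → ℕ → ℤ → Matrix κ κ ℝ}

/-- **The defect of linearity, summed over the family.** -/
theorem dcc_sum {X : Finset ℤ} {R S T : ℤ} {co : ℤ → ℕ → ℤ} {e P : ℝ} (he : 0 ≤ e)
    (h : ∀ x, H420.Tr l N (G x) (K x)) {v : ℤ → ℤ → κ → ℝ} {F : ℤ → ℕ → ℤ → ℤ → ℝ}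
    {c : ℤ → ℕ → ℤ → ℤ → κ → ℝ}
    (hP : ∀ x ∈ iv N S, ∀ q : κ → ℝ, q ⬝ᵥ G x N R *ᵥ q ≤ P * (q ⬝ᵥ q))
    (hF : ∀ j ∈ Icc 1 N, ∀ p x z, ∑ i ∈ X with co i j = p, F i j x z ^ 2 ≤ e * 2 ^ j)
    (hcF : ∀ i ∈ X, ∀ j ∈ Icc 1 N, ∀ x z, c i j x z = F i j x z • v x z) :
    ∑ i ∈ X, ∑ k ∈ range N, GW N R S T (k + 1) (co i (k + 1)) (dcc l K (c i (k + 1)) k) ≤
      e * (2 ^ N * (P / (2 * l)) * ∑ x ∈ iv N S, ∑ z ∈ iv N T, v x z ⬝ᵥ v x z) := by
  have key := H633.dTot (X := X) (N := N) (R := R) (S := S) (T := T) (c := co) (F := F) (b := 1)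
    (l := l) (P := P) (e := e)
    (D := fun i j n n' m => ((4 : ℝ) ^ j)⁻¹ * ∑ x ∈ iv j m, ∑ z ∈ iv j n',
      (v x z ⬝ᵥ H633.del l (K x j n) (K x (j - 1) (2 * n)) (K x (j - 1) (2 * n + 1)) *ᵥ
        v x z) * F i j x z ^ 2) zero_le_one he h (v := v) hP hF
    (fun i _ j _ n n' m => by rw [one_mul])
  rw [one_mul] at key
  refine le_trans (le_of_eq ?_) key
  refine sum_congr rfl fun i hi => ?_
  have e1 : ∀ f : ℕ → ℝ, ∑ j ∈ Icc 1 N, f j = ∑ k ∈ range N, f (k + 1) := by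
    intro f
    rw [range_eq_Ico, sum_Ico_add' f 0 N 1]
    rfl
  rw [e1]
  refine sum_congr rfl fun k hk => ?_
  have hk := mem_range.1 hk
  congr 1
  funext n n' m
  unfold dcc
  simp only [Nat.add_sub_cancel]
  congr 1
  refine sum_congr rfl fun x _ => sum_congr rfl fun z _ => ?_
  rw [hcF i hi (k + 1) (mem_Icc.2 ⟨by omega, by omega⟩), mulVec_smul, dotProduct_smul,
    smul_dotProduct, smul_eq_mul, smul_eq_mul]
  ring

/-- **The light pair summed over the family.**  `pB`, `pC` : masses of the killed squares, `RF` :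
reflected own energies, `Dx` : defect of linearity. -/
theorem light_x0 {X : Finset ℤ} (h : ∀ x, H420.Tr l N (G x) (K x)) {R S T : ℤ}
    {co : ℤ → ℕ → ℤ} (hc : ∀ i ∈ X, H588.Pl (co i)) {s Kop : ℝ} (hs : 0 < s) (hK0 : 0 < Kop)
    {b c : ℤ → ℕ → ℤ → ℤ → κ → ℝ} (b0 : ∀ i ∈ X, ∀ x y, b i 0 x y = 0)
    (c0 : ∀ i ∈ X, ∀ x y, c i 0 x y = 0)
    (cap1 : ∀ i ∈ X, ∀ k, k < N → ∀ n m,
      (Kop • (1 : Matrix (Ix (k + 1) × κ) (Ix (k + 1) × κ) ℝ)
        - LP l K (b i (k + 1)) (k + 1) (k + 1) n m).PosSemidef)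
    (cap : ∀ i ∈ X, ∀ k, k < N → ∀ a, k ≤ a → a ≤ N → ∀ n m,
      (Kop • (1 : Matrix (Ix k × κ) (Ix k × κ) ℝ) - LP l K (b i (k + 1)) k a n m).PosSemidef)
    {q q' : ℤ → ℕ → ℤ → ℤ → Prop}
    (agb : ∀ i ∈ X, ∀ k, k < N → ∀ n ∈ iv (N - k) R, ∀ m ∈ iv (N - k) S, ¬ q i k n m →
      ∀ x ∈ iv k m, ∀ y ∈ iv k n, b i (k + 1) x y = b i k x y)
    (agc : ∀ i ∈ X, ∀ k, k < N → ∀ n ∈ iv (N - k) T, ∀ m ∈ iv (N - k) S, ¬ q' i k n m →
      ∀ x ∈ iv k m, ∀ y ∈ iv k n, c i (k + 1) x y = c i k x y)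
    {DB DC rf Dx : ℝ}
    (pB : ∑ i ∈ X, ∑ k ∈ range N, yS N S R k 1 (q i k) (b i (k + 1)) ≤ DB)
    (pC : ∑ i ∈ X, ∑ k ∈ range N, yS N S T k 1 (q' i k) (c i (k + 1)) ≤ DC)
    (RF : ∑ i ∈ X, ∑ k ∈ range N, rS N R S T k (co i k) s (q i k) (c i (k + 1)) ≤ s ^ 2 * rf)
    (hDx : ∑ i ∈ X, ∑ k ∈ range N, GW N R S T (k + 1) (co i (k + 1))
      (dcc l K (c i (k + 1)) k) ≤ Dx) :
    ∑ i ∈ X, ∑ k ∈ range N, GW N R S T (k + 1) (co i (k + 1))
        (gn l K s (b i (k + 1)) (c i (k + 1)) (k + 1))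
      ≤ s * √Kop * (148 * DB + 288 * DC + 3 * Dx + rf) + 6 * Kop * DC := by
  have hr : 0 < √Kop := Real.sqrt_pos.2 hK0
  have H := sum_le_sum fun i (hi : i ∈ X) => H46.light_fin h (R := R) (S := S) (T := T)
    (hc i hi) hs hK0 (b0 i hi) (c0 i hi) (cap1 i hi) (cap i hi) (agb i hi) (agc i hi)
  refine H.trans ?_
  simp only [sum_add_distrib, ← mul_sum]
  have h1 := mul_le_mul_of_nonneg_left pB (show 0 ≤ s * √Kop * 148 by positivity)
  have h2 := mul_le_mul_of_nonneg_left pC (show 0 ≤ s * √Kop * 288 by positivity)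
  have h3 := mul_le_mul_of_nonneg_left hDx (show 0 ≤ s * √Kop * 3 by positivity)
  have h4 := mul_le_mul_of_nonneg_left pC (show 0 ≤ 6 * Kop by positivity)
  have h5 := mul_le_mul_of_nonneg_left RF (show 0 ≤ √Kop / s by positivity)
  have e5 : √Kop / s * (s ^ 2 * rf) = s * √Kop * rf := by
    field_simp
  rw [e5] at h5
  nlinarith [h1, h2, h3, h4, h5]

end

end Vale.Agent.P141.H999
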