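import Vale.Agent.P141.H675.PhiX
import Vale.Agent.P141.H565.MVb

/-!
# P141, line (A), flow part, hub x1: the masses of `b` on the changed rows at one slot

`phV1 : PartS H636.FDU PhV1`, from `H565.MV.MV_FDs`.
-/

namespace Vale.Agent.P141.H999

open Finset Matrix
open Vale.Agent.P141.PL (Pt iv ix cx)
open Vale.Agent.P141.H186.PS
open Vale.Agent.P141.H277.Phi
open Vale.Agent.P141.H675.PX

noncomputable section

open scoped Classical

theorem lm_MM {q : H401.Num} {s r κ : ℝ} {K : ℕ} (ht : 0 < q.t) (ht1 : q.t ≤ 1) (hc : 0 ≤ q.c)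
    (hd : 0 ≤ q.d) (hs : 0 < s) (hr : 1 ≤ r) (hκ : 1 ≤ κ) :
    q.Lm * s * 8 ^ K ≤ MM q s r κ K := by
  have h1 := lgS_one ht ht1 hr hκ
  have h2 : (1 : ℝ) ≤ lgS q r κ ^ 64 := one_le_pow₀ h1
  have h3 : q.Lm ≤ q.t ^ (-(64 * (q.c + q.d))) :=
    Real.rpow_le_rpow_of_exponent_ge ht ht1 (by linarith)
  have h4 : 0 < q.t ^ (-(64 * (q.c + q.d))) := Real.rpow_pos_of_pos ht _
  unfold MM
  calc q.Lm * s * 8 ^ K ≤ q.t ^ (-(64 * (q.c + q.d))) * s * 8 ^ K :=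
        mul_le_mul_of_nonneg_right (mul_le_mul_of_nonneg_right h3 hs.le) (by positivity)
    _ = 1 * (q.t ^ (-(64 * (q.c + q.d))) * s * 8 ^ K) := (one_mul _).symm
    _ ≤ lgS q r κ ^ 64 * (q.t ^ (-(64 * (q.c + q.d))) * s * 8 ^ K) :=
        mul_le_mul_of_nonneg_right h2 (by positivity)

/-- **The masses of `b` on the changed rows, at one slot.** -/
theorem phV1 : PartS H636.FDU PhV1 := by
  refine PartS.of_slot (fun q => 9 * q.CD * (q.cP + 2)) ?_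
  intro ι _ _ q n ez F1 F2 F3 o K x s r U g u v A b C R κ E h j e ha ha1 he0 he01 hk8 hk81 hk3
    hk31 hc hc1 hd hd1 hK he hcP hL hCD ht ht1 h1 h3 h2 ho hKn hs hr hcls hD hκ hE hEL hsl hh hj hq
  intro t' _
  obtain ⟨Q1, Q2, Q3, v', hF⟩ := hD.2.2
  refine (H565.MV.MV_FDs hF hKn t' h ((cx K x).1 - e.1) ((cx K x).2.1 - e.2.1)).trans ?_
  have hM := lm_MM (K := K) ht ht1 hc hd.le hs hr hκ
  have hM0 := MM_nonneg (K := K) ht ht1 hs hr hκ
  have hA : 0 ≤ 9 * q.CD * (q.cP + 2) := by positivity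
  calc 9 * (q.CD * (q.Lm * s)) * (q.cP + 2) * 8 ^ K
      = 9 * q.CD * (q.cP + 2) * (q.Lm * s * 8 ^ K) := by ring
    _ ≤ 9 * q.CD * (q.cP + 2) * MM q s r κ K := mul_le_mul_of_nonneg_left hM hA
    _ ≤ max 1 (9 * (wot q).CD * ((wot q).cP + 2)) * MM q s r κ K :=
        mul_le_mul_of_nonneg_right (le_max_right _ _) hM0

end

end Vale.Agent.P141.H999
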