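import Vale.Agent.P141.H999.LightX
import Vale.Agent.P141.H874.LightB

/-!
# P141, line (A): the light pair in the letters of `tzX_lab`

`hqL_of` : the input `hqL` of `H609.tzX_lab` for a family, every level `j`.
-/

set_option linter.unusedSectionVars false

namespace Vale.Agent.P141.H999

open scoped Kronecker
open Finset Matrix Vale.Agent.P141.PL Vale.Agent.P141.PL.H103 Vale.Agent.P141.H103
open Vale.Agent.P075 Vale.Agent.P141.PL.H804 Vale.Agent.P141.H958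
open Vale.Agent.P141.H536 (SE)
open Vale.Agent.P141.H338 (lf)
open Vale.Agent.P141.PL.H588 (hd)
open Vale.Agent.P141.H736 (Path)
open Vale.Agent.P141.H46 (yS rS)
open Vale.Agent.P141.H874 (gn dcc LP QP sw SL PH_light)

noncomputable section

variable {κ : Type*} [Fintype κ] [DecidableEq κ]
variable {l : ℝ} {N L : ℕ} {G K : ℤ → ℕ → ℤ → Matrix κ κ ℝ} {e : κ → ℤ}

/-- **The input `hqL` of `H609.tzX_lab` for a family**, level `j`. -/
theorem hqL_of {X : Finset ℤ} (h : ∀ x, H420.Tr l N (G x) (K x)) (he : Function.Injective e)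
    (hm : ∀ a, e a ∈ lbs L) {cC Kop : ℝ} (hC : 0 < cC) (hK0 : 0 < Kop) {R : Pt}
    {co : ℤ → ℕ → ℤ} (hc : ∀ i ∈ X, H588.Pl (co i)) {s : ℤ → ℕ → Finset Pt}
    (hs : ∀ i ∈ X, ∀ k ∈ Icc 1 N, s i k ⊆ bx3 N R k (co i k))
    {b c : ℤ → ℕ → κ → ℤ → ℤ → ℝ} {QB QC : ℤ → ℕ → ℤ → ℤ → Prop}
    (hB0 : ∀ i ∈ X, lf e (b i 0) = 0) (hC0 : ∀ i ∈ X, lf e (c i 0) = 0)
    (pB : ∀ i ∈ X, ∀ a ∈ lbs L, Path N R.2.1 R.2.2 (QB i) (fun k => lf e (b i k) a))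
    (pC : ∀ i ∈ X, ∀ a ∈ lbs L, Path N R.1 R.2.2 (QC i) (fun k => lf e (c i k) a))
    (cap1 : ∀ i ∈ X, ∀ k, k < N → ∀ n m,
      (Kop • (1 : Matrix (Ix (k + 1) × κ) (Ix (k + 1) × κ) ℝ)
        - LP l K (sw (b i) (k + 1)) (k + 1) (k + 1) n m).PosSemidef)
    (cap : ∀ i ∈ X, ∀ k, k < N → ∀ a, k ≤ a → a ≤ N → ∀ n m,
      (Kop • (1 : Matrix (Ix k × κ) (Ix k × κ) ℝ)
        - LP l K (sw (b i) (k + 1)) k a n m).PosSemidef)
    {DB DC rf Dx : ℝ}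
    (oB : ∑ i ∈ X, ∑ a ∈ lbs L, pwr N R.2.1 R.2.2 (QB i) (fun k => lf e (b i k) a) ≤ DB)
    (oC : ∑ i ∈ X, ∑ a ∈ lbs L, pwr N R.1 R.2.2 (QC i) (fun k => lf e (c i k) a) ≤ DC)
    (j : ℕ)
    (RF : ∑ i ∈ X, ∑ k ∈ range N, rS N R.2.1 R.2.2 R.1 k (co i k) (cC / 2 ^ (j - 1)) (QB i k)
      (sw (c i) (k + 1)) ≤ (cC / 2 ^ (j - 1)) ^ 2 * rf)
    (hDx : ∑ i ∈ X, ∑ k ∈ range N, GW N R.2.1 R.2.2 R.1 (k + 1) (co i (k + 1))
      (dcc l K (sw (c i) (k + 1)) k) ≤ Dx) :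
    ∑ i ∈ X, (cC / 2 ^ (j - 1)) ^ 2 * ∑ k ∈ Icc 1 N, ∑ m ∈ s i k,
      (phi (gramC (lv cC j * (4 ^ (k + L))⁻¹)
        (bl (k + L) (encR L (lf e (c i k))) m.1 m.2.2)) *
      ((hd (k + L) * SE L e (SL l K) (k + L) m *
        (bl (k + L) (encR L (lf e (b i k))) m.2.1 m.2.2)ᵀ * hd (k + L)) *
        (hd (k + L) * SE L e (SL l K) (k + L) m *
        (bl (k + L) (encR L (lf e (b i k))) m.2.1 m.2.2)ᵀ * hd (k + L))ᵀ)).trace ≤
      4 ^ L * (cC / 2 ^ (j - 1) * √Kop * (148 * DB + 288 * DC + 3 * Dx + rf)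
        + 6 * Kop * DC) := by
  have hs0 : 0 < cC / 2 ^ (j - 1) := by positivity
  have key := light_x0 h (R := R.2.1) (S := R.2.2) (T := R.1) hc hs0 hK0
    (b := fun i => sw (b i)) (c := fun i => sw (c i)) (q := QB) (q' := QC)
    (fun i hi x y => zero_of_lf he (hB0 i hi) x y) (fun i hi x y => zero_of_lf he (hC0 i hi) x y)
    cap1 cap
    (fun i hi k hk n hn m hm' hq x hx y hy =>
      ag_of_path he hm (pB i hi) hk n hn m hm' hq x hx y hy)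
    (fun i hi k hk n hn m hm' hq x hx y hy =>
      ag_of_path he hm (pC i hi) hk n hn m hm' hq x hx y hy)
    (DB := DB) (DC := DC) (rf := rf) (Dx := Dx)
    (le_trans (le_of_eq (sum_congr rfl fun i _ => pwr_lab he hm (QB i) (b i))) oB)
    (le_trans (le_of_eq (sum_congr rfl fun i _ => pwr_lab he hm (QC i) (c i))) oC) RF hDx
  refine (sum_le_sum fun i hi => PH_light h he hm hC (hs i hi) (b := b i) (c := c i) j).trans ?_
  rw [← mul_sum, ← range_eq_Ico]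
  exact mul_le_mul_of_nonneg_left key (by positivity)

end

end Vale.Agent.P141.H999
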