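import Vale.Agent.P141.H999.LightX
import Vale.Agent.P141.H874.LightC
import Vale.Agent.P141.H588G.CarlL

/-!
# P141, line (A): the light pair of a family in the letters of the seam

* `rf_sum` : the reflected own energies of the family;
* `zl_of` : the input `ZLight` (the pair sum of `C` and of the light matrix, every level `j`)
  for a family, from the paths, the caps, the packing and three numbers.
-/

set_option linter.unusedSectionVars false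

namespace Vale.Agent.P141.H999

open Finset Matrix Vale.Agent.P141.PL Vale.Agent.P141.PL.H103 Vale.Agent.P141.H103
open Vale.Agent.P075 Vale.Agent.P141.PL.H804 Vale.Agent.P141.H958
open Vale.Agent.P141.PL.H588 (hd)
open Vale.Agent.P141.H822 (SV VL)
open Vale.Agent.P141.H511 (BL CL)
open Vale.Agent.P141.H46 (yS rS)
open Vale.Agent.P141.H874 (gn dcc LP QP tw PH_zl)

noncomputable section

open scoped Classical

variable {κ : Type*} [Fintype κ] [DecidableEq κ]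
variable {l : ℝ} {N L : ℕ} {G K : ℤ → ℕ → ℤ → Matrix κ κ ℝ} {e : κ → ℤ}

/-- **The reflected own energies of the family.** -/
theorem rf_sum {X : Finset ℤ} {R S T : ℤ} {co : ℤ → ℕ → ℤ} (hc : ∀ i ∈ X, H588.Pl (co i))
    {cP s DC : ℝ} (hP : 0 < cP) (hs : s ≠ 0) {q q' : ℤ → ℕ → ℤ → ℤ → Prop}
    (hpk : ∀ i ∈ X, PackQ N R S (q i) cP) {c : ℤ → ℕ → ℤ → ℤ → κ → ℝ}
    (c0 : ∀ i ∈ X, ∀ x y, c i 0 x y = 0)
    (agc : ∀ i ∈ X, ∀ k, k < N → ∀ n ∈ iv (N - k) T, ∀ m ∈ iv (N - k) S, ¬ q' i k n m →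
      ∀ x ∈ iv k m, ∀ y ∈ iv k n, c i (k + 1) x y = c i k x y)
    (pC : ∑ i ∈ X, ∑ k ∈ range N, yS N S T k 1 (q' i k) (c i (k + 1)) ≤ DC) :
    ∑ i ∈ X, ∑ k ∈ range N, rS N R S T k (co i k) s (q i k) (c i (k + 1))
      ≤ s ^ 2 * (20 * cP * DC) := by
  refine (sum_le_sum fun i hi => H588G.rS_sum (hc i hi) hP hs (hpk i hi) (c0 i hi)
    (agc i hi)).trans ?_
  rw [← mul_sum]
  refine (mul_le_mul_of_nonneg_left pC (show 0 ≤ 20 * cP * s ^ 2 by positivity)).trans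
    (le_of_eq ?_)
  ring

/-- **The light pair of a family in the letters of the seam**, level `j`. -/
theorem zl_of {X : Finset ℤ} (h : ∀ x, H420.Tr l N (G x) (K x)) (he : Function.Injective e)
    (hm : ∀ a, e a ∈ lbs L) {cC Kop : ℝ} (hC : 0 < cC) (hK0 : 0 < Kop) {R : Pt}
    {co : ℤ → ℕ → ℤ} (hc : ∀ i ∈ X, H588.Pl (co i)) {s : ℤ → ℕ → Finset Pt}
    (hs : ∀ i ∈ X, ∀ k ∈ Icc 1 N, s i k ⊆ bx3 N R k (co i k))
    {b C : ℤ → ℕ → ℤ → ℤ → κ → ℝ} {q q' : ℤ → ℕ → ℤ → ℤ → Prop}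
    (b0 : ∀ i ∈ X, ∀ x y, b i 0 x y = 0) (c0 : ∀ i ∈ X, ∀ z x, C i 0 z x = 0)
    (agb : ∀ i ∈ X, ∀ k, k < N → ∀ n ∈ iv (N - k) R.2.1, ∀ m ∈ iv (N - k) R.2.2, ¬ q i k n m →
      ∀ x ∈ iv k m, ∀ y ∈ iv k n, b i (k + 1) x y = b i k x y)
    (agc : ∀ i ∈ X, ∀ k, k < N → ∀ n ∈ iv (N - k) R.1, ∀ m ∈ iv (N - k) R.2.2, ¬ q' i k n m →
      ∀ x ∈ iv k m, ∀ z ∈ iv k n, C i (k + 1) z x = C i k z x)
    (cap1 : ∀ i ∈ X, ∀ k, k < N → ∀ n m,
      (Kop • (1 : Matrix (Ix (k + 1) × κ) (Ix (k + 1) × κ) ℝ)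
        - LP l K (b i (k + 1)) (k + 1) (k + 1) n m).PosSemidef)
    (cap : ∀ i ∈ X, ∀ k, k < N → ∀ a, k ≤ a → a ≤ N → ∀ n m,
      (Kop • (1 : Matrix (Ix k × κ) (Ix k × κ) ℝ) - LP l K (b i (k + 1)) k a n m).PosSemidef)
    {cP : ℝ} (hP : 0 < cP) (hpk : ∀ i ∈ X, PackQ N R.2.1 R.2.2 (q i) cP)
    {DB DC Dx : ℝ}
    (pB : ∑ i ∈ X, ∑ k ∈ range N, yS N R.2.2 R.2.1 k 1 (q i k) (b i (k + 1)) ≤ DB)
    (pC : ∑ i ∈ X, ∑ k ∈ range N, yS N R.2.2 R.1 k 1 (q' i k) (tw (C i) (k + 1)) ≤ DC)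
    (hDx : ∑ i ∈ X, ∑ k ∈ range N, GW N R.2.1 R.2.2 R.1 (k + 1) (co i (k + 1))
      (dcc l K (tw (C i) (k + 1)) k) ≤ Dx) (j : ℕ) :
    ∑ i ∈ X, (cC / 2 ^ (j - 1)) ^ 2 * ∑ k ∈ Icc 1 N, ∑ m ∈ s i k,
      (phi (gramC (lv cC j * (4 ^ (k + L))⁻¹)
        (bl (k + L) (encR L (CL e (C i k))) m.1 m.2.2)) *
      ((hd (k + L) * SV L e (VL l K) (k + L) m *
        (bl (k + L) (encR L (BL e (b i k))) m.2.1 m.2.2)ᵀ * hd (k + L)) *
        (hd (k + L) * SV L e (VL l K) (k + L) m *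
        (bl (k + L) (encR L (BL e (b i k))) m.2.1 m.2.2)ᵀ * hd (k + L))ᵀ)).trace ≤
      4 ^ L * (cC / 2 ^ (j - 1) * √Kop * (148 * DB + (288 + 20 * cP) * DC + 3 * Dx)
        + 6 * Kop * DC) := by
  have hs0 : 0 < cC / 2 ^ (j - 1) := by positivity
  have RF := rf_sum (R := R.2.1) (S := R.2.2) (T := R.1) hc hP hs0.ne' hpk
    (c := fun i => tw (C i)) (fun i hi x y => c0 i hi y x) agc pC
  have key := light_x0 h (R := R.2.1) (S := R.2.2) (T := R.1) hc hs0 hK0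
    (b := b) (c := fun i => tw (C i)) (q := q) (q' := q') b0 (fun i hi x y => c0 i hi y x)
    cap1 cap agb agc pB pC RF hDx
  refine (sum_le_sum fun i hi => PH_zl h he hm hC (hs i hi) (b := b i) (C := C i) j).trans ?_
  rw [← mul_sum]
  refine mul_le_mul_of_nonneg_left (key.trans (le_of_eq ?_)) (by positivity)
  ring

end

end Vale.Agent.P141.H999
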