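import Vale.Agent.P141.H900.NumMass
import Vale.Agent.P141.H38.StkQ
import Vale.Agent.P141.H677.FDb
import Vale.Agent.P141.H747.StageM

/-!
# P141, line (A), flow part, hub x1: the mass number of the partner `b`

* `dat_b` : the squared norms of `b` in the letters of `H900.Num.Dat`;
* `bP_one` : affected rows of the shifted family at one scale and one `x0`;
* `massB` : first scale and affected rows, summed over `x0`, any shift and any roots.
-/

namespace Vale.Agent.P141.H999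

open Finset Matrix
open Vale.Agent.P141.PL (Pt iv ix mem_iv cx)
open Vale.Agent.P141.PL.H315 (Tri)
open Vale.Agent.P141.H747 (sft shB MSb)
open Vale.Agent.P141.H677.Sk (FDs)
open Vale.Agent.P141.H900.Num (Dat Bo bo_one Bo_sum ch_pos sum_iv_iv)
open Vale.Agent.P141.H38.Q (AfC bP)

noncomputable section

open scoped Classical

variable {ι : Type} [Fintype ι] [DecidableEq ι]

/-- squared norms of the shifted family -/
theorem sft_dot (N : ℕ) (R S a b : ℤ) (f : ℤ → ℤ → ι → ℝ) (x y : ℤ) :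
    sft N R S a b f x y ⬝ᵥ sft N R S a b f x y = sft N R S a b (fun x y => f x y ⬝ᵥ f x y) x y := by
  unfold H747.sft
  split_ifs
  · rfl
  · exact zero_dotProduct _

theorem sft_dot_nonneg (N : ℕ) (R S a b : ℤ) (f : ℤ → ℤ → ι → ℝ) (x y : ℤ) :
    0 ≤ sft N R S a b (fun x y => f x y ⬝ᵥ f x y) x y :=
  H900.Num.sft_nonneg (fun x y => by simpa using dotProduct_star_self_nonneg (f x y)) x y

/-- the sum over a root by squares -/
theorem sum_sq {k N : ℕ} (hk : k ≤ N) (R S : ℤ) (g : ℤ → ℤ → ℝ) :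
    ∑ x ∈ iv N R, ∑ y ∈ iv N S, g x y =
      ∑ n ∈ iv (N - k) R, ∑ m ∈ iv (N - k) S, ∑ x ∈ iv k n, ∑ y ∈ iv k m, g x y := by
  rw [← sum_iv_iv hk R]
  refine sum_congr rfl fun n _ => ?_
  rw [sum_comm, ← sum_iv_iv hk S]
  refine sum_congr rfl fun m _ => sum_comm

/-- **Affected rows of the shifted family**, one scale, one `x0`. -/
theorem bP_one {N : ℕ} {R S : ℤ} {F : ℤ → ℕ → ℤ → ℤ → ι → ℝ} {Q : ℕ → ℤ → ℤ → ℤ → Prop} {B P : ℝ}
    (h : Dat N R S (fun x0 k x y => F x0 k x y ⬝ᵥ F x0 k x y) Q B P) (x0 : ℤ) {k : ℕ} (hk : k < N)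
    (hag : ∀ n m, ¬ Q k (ix k x0) n m → ∀ x ∈ iv k n, ∀ y ∈ iv k m,
      F x0 (k + 1) x y = F x0 k x y) (a b R' S' : ℤ) :
    ∑ x ∈ iv N R', ∑ y ∈ iv N S',
      bP k (sft N R S a b (F x0 k)) (sft N R S a b (F x0 (k + 1))) x y ⬝ᵥ
        bP k (sft N R S a b (F x0 k)) (sft N R S a b (F x0 (k + 1))) x y ≤
      ∑ p ∈ iv (N - k) R, ∑ q ∈ iv (N - k) S, (if Q k (ix k x0) p q then
        H900.Num.G16 N R S (fun x y => F x0 (k + 1) x y ⬝ᵥ F x0 (k + 1) x y) a b k p q else 0) := by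
  rw [sum_sq hk.le R' S']
  set Chp : ℤ → ℤ → Prop := fun n m => ∃ x ∈ iv k n, ∃ y ∈ iv k m,
    sft N R S a b (F x0 (k + 1)) x y ≠ sft N R S a b (F x0 k) x y with hChp
  refine le_trans ?_ (bo_one h x0 hk a b (iv (N - k) R') (iv (N - k) S') (Chp := Chp)
    fun n m hc => ch_pos hk.le hag hc)
  refine sum_le_sum fun n _ => sum_le_sum fun m _ => ?_
  split_ifs with hc
  · refine sum_le_sum fun x _ => sum_le_sum fun y _ => ?_
    have es := sft_dot (ι := ι) N R S a b (F x0 (k + 1)) x y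
    beta_reduce
    rw [← es]
    unfold H38.Q.bP
    split_ifs
    · exact le_rfl
    · rw [zero_dotProduct]
      rw [es]
      exact sft_dot_nonneg _ _ _ _ _ _ _ _
  · refine le_of_eq (sum_eq_zero fun x hx => sum_eq_zero fun y hy => ?_)
    have : bP k (sft N R S a b (F x0 k)) (sft N R S a b (F x0 (k + 1))) x y = 0 := by
      unfold H38.Q.bP
      rw [if_neg]
      intro ha
      apply ha
      intro x' hx'
      by_contra hne
      refine hc ⟨x', ?_, y, hy, hne⟩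
      rw [mem_iv] at hx hx' ⊢
      rw [hx', hx]
    rw [this, zero_dotProduct]

/-- **Affected rows of the shifted family, summed over `x0`.** -/
theorem bP_sum {N : ℕ} {R S : ℤ} {F : ℤ → ℕ → ℤ → ℤ → ι → ℝ} {Q : ℕ → ℤ → ℤ → ℤ → Prop} {B P : ℝ}
    (h : Dat N R S (fun x0 k x y => F x0 k x y ⬝ᵥ F x0 k x y) Q B P)
    (hag : ∀ x0, ∀ k < N, ∀ n m, ¬ Q k (ix k x0) n m → ∀ x ∈ iv k n, ∀ y ∈ iv k m,
      F x0 (k + 1) x y = F x0 k x y) (a b R' S' t : ℤ) :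
    ∑ x0 ∈ iv N t, ∑ k ∈ range N, ∑ x ∈ iv N R', ∑ y ∈ iv N S',
      bP k (sft N R S a b (F x0 k)) (sft N R S a b (F x0 (k + 1))) x y ⬝ᵥ
        bP k (sft N R S a b (F x0 k)) (sft N R S a b (F x0 (k + 1))) x y ≤ 16 * B * P * 8 ^ N := by
  refine le_trans ?_ (Bo_sum h a b t)
  refine sum_le_sum fun x0 _ => ?_
  unfold H900.Num.Bo
  exact sum_le_sum fun k hk => bP_one h x0 (mem_range.1 hk) (hag x0 k (mem_range.1 hk)) a b R' S'

/-- `b` in the letters of `Dat` -/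
theorem dat_b {q : H401.Num} {n : ℕ} {ez : ℝ} {F1 F2 F3 : ℕ → Pt → ℝ} {K : ℕ} {x : Pt} {s r : ℝ}
    {U : Tri} {g : ℤ → ℤ → ℝ} {u v : ℤ → ℤ → ι → ℝ} {A : H677.Sk.FamA} {b C : H677.Sk.FamV ι}
    {Q1 Q2 Q3 : ℕ → Pt → Prop} {v' : ℤ → ℤ → ι → ℝ}
    (hF : FDs q n ez F1 F2 F3 K x s r U g u v A b C Q1 Q2 Q3 v') (hK : K ≤ n)
    (h0 : 0 ≤ q.CD * (q.Lm * s)) :
    Dat K (cx K x).1 (cx K x).2.1 (fun x0 k x y => b x0 k x y ⬝ᵥ b x0 k x y)
      (fun k i n m => H401.qB q U K Q3 k i n m) (q.CD * (q.Lm * s)) (q.cP + 2) where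
  B0 := h0
  f0 := fun x0 k x y => by simpa using dotProduct_star_self_nonneg (b x0 k x y)
  ag := fun x0 k hk n m hq x hx y hy => by
    beta_reduce
    rw [hF.agb x0 k hk n m hq x hx y hy]
  ms := fun k hk j hj i n hn m hm => hF.massb k hk j hj i n hn m hm
  pk := fun x0 => H576.QD_pack (H576.Dd_sst q.Lm U.1 K) hF.B3 x0 hK _ _

/-- affected rows of a function with first half `0` -/
theorem bP_elim (k : ℕ) (f f' : ℤ → ℤ → ι → ℝ) (x y : ℤ) :
    ∑ i, bP k (fun x y => (Sum.elim (0 : ι → ℝ) (f x y) : ι ⊕ ι → ℝ))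
        (fun x y => Sum.elim (0 : ι → ℝ) (f' x y)) x y i ^ 2 =
      bP k f f' x y ⬝ᵥ bP k f f' x y := by
  have e : AfC k (fun x y => (Sum.elim (0 : ι → ℝ) (f x y) : ι ⊕ ι → ℝ))
      (fun x y => Sum.elim (0 : ι → ℝ) (f' x y)) (ix k x) y ↔ AfC k f f' (ix k x) y := by
    unfold H38.Q.AfC
    refine not_congr (forall_congr' fun x' => forall_congr' fun _ => ⟨fun h => ?_, fun h => ?_⟩)
    · funext i
      exact congrFun h (Sum.inr i)
    · beta_reduce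
      rw [h]
  unfold H38.Q.bP
  by_cases h : AfC k f f' (ix k x) y
  · rw [if_pos (e.2 h), if_pos h, Fintype.sum_sum_type]
    simp [dotProduct, sq]
  · rw [if_neg fun h' => h (e.1 h'), if_neg h]
    simp [dotProduct]

/-- **The mass number of the partner `b`** : first scale and affected rows of the shifted family,
summed over `x0`; any shift `h`, any roots `S'` (x1), `Y'` (x2). -/
theorem massB {q : H401.Num} {n : ℕ} {ez : ℝ} {F1 F2 F3 : ℕ → Pt → ℝ} {K : ℕ} {x : Pt} {s r : ℝ}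
    {U : Tri} {g : ℤ → ℤ → ℝ} {u v : ℤ → ℤ → ι → ℝ} {A : H677.Sk.FamA} {b C : H677.Sk.FamV ι}
    {Q1 Q2 Q3 : ℕ → Pt → Prop} {v' : ℤ → ℤ → ι → ℝ}
    (hF : FDs q n ez F1 F2 F3 K x s r U g u v A b C Q1 Q2 Q3 v') (hK : K ≤ n)
    (h0 : 0 ≤ q.CD * (q.Lm * s)) (h : Pt) (S' Y' t : ℤ) :
    ∑ x0 ∈ iv K t, (∑ x1 ∈ iv K S', ∑ y ∈ iv K Y', ∑ i, MSb K (cx K x) b h x0 0 x1 y i ^ 2 +
      3 * ∑ k ∈ Ico 0 K, ∑ x1 ∈ iv K S', ∑ y ∈ iv K Y', ∑ i,
        bP k (MSb K (cx K x) b h x0 k) (MSb K (cx K x) b h x0 (k + 1)) x1 y i ^ 2) ≤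
      48 * (q.CD * (q.Lm * s)) * (q.cP + 2) * 8 ^ K := by
  have e0 : ∀ x0 x1 y i, MSb K (cx K x) b h x0 0 x1 y i = 0 := by
    intro x0 x1 y i
    unfold H747.MSb H747.shB H747.sft
    rcases i with i | i
    · rfl
    · show (if _ then b x0 0 (x1 + h.1) (y + h.2.1) else 0) i = 0
      rw [hF.z0b]
      split_ifs <;> rfl
  have e1 : ∀ x0 k x1 y, ∑ i, bP k (MSb K (cx K x) b h x0 k) (MSb K (cx K x) b h x0 (k + 1))
      x1 y i ^ 2 = bP k (shB K (cx K x) h (b x0) k) (shB K (cx K x) h (b x0) (k + 1)) x1 y ⬝ᵥ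
        bP k (shB K (cx K x) h (b x0) k) (shB K (cx K x) h (b x0) (k + 1)) x1 y :=
    fun x0 k x1 y => bP_elim k _ _ x1 y
  simp only [e0, e1, ne_eq, OfNat.ofNat_ne_zero, not_false_eq_true, zero_pow, sum_const_zero,
    zero_add]
  rw [← mul_sum, ← range_eq_Ico]
  have key := bP_sum (dat_b hF hK h0) (F := b) (fun x0 k hk n m hq x hx y hy =>
    hF.agb x0 k hk n m hq x hx y hy) h.1 h.2.1 S' Y' t
  refine (mul_le_mul_of_nonneg_left key (by norm_num)).trans (le_of_eq ?_)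
  ring

end

end Vale.Agent.P141.H999
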